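import Mathlib

namespace Vale.Agent.P344

open Matrix Finset

variable {n k : ℕ}

theorem det_conj_mul (A : Matrix (Fin n) (Fin k) ℂ) :
    (Aᴴ * A).det = ∑ f : Fin k → Fin n, star (A.submatrix f id).det * ∏ i, A (f i) i := by
  have h1 : (Aᴴ * A).det =
      ∑ f : Fin k → Fin n, ∑ σ : Equiv.Perm (Fin k),
        (Equiv.Perm.sign σ : ℂ) * ∏ i, star (A (f i) (σ i)) * A (f i) i := by
    simp only [det_apply', mul_apply, Finset.prod_univ_sum, Finset.mul_sum,
      Fintype.piFinset_univ, conjTranspose_apply]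
    rw [Finset.sum_comm]
  rw [h1]
  refine Finset.sum_congr rfl fun f _ => ?_
  rw [← Matrix.det_transpose (A.submatrix f id), det_apply', star_sum, Finset.sum_mul]
  refine Finset.sum_congr rfl fun σ _ => ?_
  rw [Finset.prod_mul_distrib]
  simp only [star_mul', star_prod, Matrix.transpose_apply, Matrix.submatrix_apply, id]
  have h5 : star ((Equiv.Perm.sign σ : ℤ) : ℂ) = ((Equiv.Perm.sign σ : ℤ) : ℂ) := by simp
  rw [h5]
  ring

theorem sum_det_sq (A : Matrix (Fin n) (Fin k) ℂ) :
    ∑ f : Fin k → Fin n, star (A.submatrix f id).det * (A.submatrix f id).det =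
      (k.factorial : ℂ) * (Aᴴ * A).det := by
  have h : ∀ f : Fin k → Fin n, star (A.submatrix f id).det * (A.submatrix f id).det =
      ∑ σ : Equiv.Perm (Fin k), star (A.submatrix f id).det *
        ((Equiv.Perm.sign σ : ℂ) * ∏ i, A (f (σ i)) i) := by
    intro f
    rw [← Finset.mul_sum]
    congr 1
    exact det_apply' (A.submatrix f id)
  simp only [h]
  rw [Finset.sum_comm]
  have h2 : ∀ σ : Equiv.Perm (Fin k), ∑ f : Fin k → Fin n, star (A.submatrix f id).det *
        ((Equiv.Perm.sign σ : ℂ) * ∏ i, A (f (σ i)) i) = (Aᴴ * A).det := by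
    intro σ
    rw [det_conj_mul]
    refine Fintype.sum_equiv (Equiv.arrowCongr σ.symm (Equiv.refl _)) _ _ ?_
    intro f
    have h3 : A.submatrix ((σ.symm.arrowCongr (Equiv.refl (Fin n))) f) id =
        (A.submatrix f id).submatrix σ id := rfl
    have h6 : ∀ i, A ((σ.symm.arrowCongr (Equiv.refl (Fin n))) f i) i = A (f (σ i)) i :=
      fun i => rfl
    simp only [h6]
    have h4 := Matrix.det_permute σ (A.submatrix f id)
    rw [h3]
    rw [h4, star_mul']
    have h5 : star ((Equiv.Perm.sign σ : ℤ) : ℂ) = ((Equiv.Perm.sign σ : ℤ) : ℂ) := by simp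
    rw [h5]
    ring
  simp only [h2]
  simp [Fintype.card_perm]

theorem sum_norm_det_sq (A : Matrix (Fin n) (Fin k) ℂ) (c : ℝ) (hc : (Aᴴ * A).det = c) :
    ∑ f : Fin k → Fin n, ‖(A.submatrix f id).det‖ ^ 2 = (k.factorial : ℝ) * c := by
  have h := sum_det_sq A
  rw [hc] at h
  have h2 : ((∑ f : Fin k → Fin n, ‖(A.submatrix f id).det‖ ^ 2 : ℝ) : ℂ) =
      (((k.factorial : ℝ) * c : ℝ) : ℂ) := by
    push_cast
    rw [← h]
    refine Finset.sum_congr rfl fun f _ => ?_
    rw [← Complex.conj_mul']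
    rfl
  exact_mod_cast h2

theorem det_zero_of_not_inj (A : Matrix (Fin n) (Fin k) ℂ) (f : Fin k → Fin n)
    (hf : ¬ Function.Injective f) : (A.submatrix f id).det = 0 := by
  simp only [Function.Injective, not_forall] at hf
  obtain ⟨a, b, hab, hne⟩ := hf
  refine Matrix.det_zero_of_row_eq hne ?_
  funext j
  simp [hab]

/-- A minor of maximal size of a matrix with orthonormal columns has modulus at most one. -/
theorem norm_minor_le_one (A : Matrix (Fin n) (Fin k) ℂ) (hA : Aᴴ * A = 1)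
    (f : Fin k → Fin n) : ‖(A.submatrix f id).det‖ ≤ 1 := by
  by_cases hf : Function.Injective f
  swap
  · simp [det_zero_of_not_inj A f hf]
  have h := sum_norm_det_sq A 1 (by simp [hA])
  have h1 : ∑ σ : Equiv.Perm (Fin k), ‖(A.submatrix (f ∘ σ) id).det‖ ^ 2 ≤
      ∑ g : Fin k → Fin n, ‖(A.submatrix g id).det‖ ^ 2 := by
    have hinj : Function.Injective (fun σ : Equiv.Perm (Fin k) => f ∘ (σ : Fin k → Fin k)) := by
      intro σ τ hστ
      ext i
      have := congrFun hστ i
      simpa using congrArg Fin.val (hf this)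
    rw [← Finset.sum_image (f := fun g : Fin k → Fin n => ‖(A.submatrix g id).det‖ ^ 2)
      (s := Finset.univ) (g := fun σ : Equiv.Perm (Fin k) => f ∘ (σ : Fin k → Fin k))
      (fun a _ b _ hab => hinj hab)]
    exact Finset.sum_le_sum_of_subset_of_nonneg (Finset.subset_univ _)
      (fun _ _ _ => by positivity)
  have h2 : ∀ σ : Equiv.Perm (Fin k), ‖(A.submatrix (f ∘ σ) id).det‖ ^ 2 =
      ‖(A.submatrix f id).det‖ ^ 2 := by
    intro σ
    have h3 : A.submatrix (f ∘ σ) id = (A.submatrix f id).submatrix σ id := rfl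
    rw [h3, Matrix.det_permute, norm_mul]
    have : ‖((Equiv.Perm.sign σ : ℤ) : ℂ)‖ = 1 := by
      rcases Int.units_eq_one_or (Equiv.Perm.sign σ) with h | h <;> simp [h]
    rw [this, one_mul]
  simp only [h2, Finset.sum_const, Finset.card_univ, Fintype.card_perm, Fintype.card_fin,
    nsmul_eq_mul] at h1
  rw [h] at h1
  have h4 : (0 : ℝ) < (k.factorial : ℝ) := by positivity
  have h5 : ‖(A.submatrix f id).det‖ ^ 2 ≤ 1 := by
    have := (mul_le_mul_iff_right₀ h4).1 h1
    simpa using this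
  have h6 : 0 ≤ ‖(A.submatrix f id).det‖ := norm_nonneg _
  nlinarith

/-- If `Aᴴ A = c • 1` and all maximal minors have modulus at most `D`, then
`c ^ k ≤ 2 ^ n * D ^ 2`. -/
theorem pow_le_of_minors (A : Matrix (Fin n) (Fin k) ℂ) (c D : ℝ)
    (hA : Aᴴ * A = (c : ℂ) • (1 : Matrix (Fin k) (Fin k) ℂ))
    (hD : ∀ f : Fin k → Fin n, ‖(A.submatrix f id).det‖ ≤ D) :
    c ^ k ≤ 2 ^ n * D ^ 2 := by
  have h := sum_norm_det_sq A (c ^ k) (by simp [hA])
  have h1 : ∑ f : Fin k → Fin n, ‖(A.submatrix f id).det‖ ^ 2 ≤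
      ∑ f ∈ (Finset.univ.filter (fun f : Fin k → Fin n => Function.Injective f)), D ^ 2 := by
    rw [← Finset.sum_filter_add_sum_filter_not Finset.univ
      (fun f : Fin k → Fin n => Function.Injective f)]
    have h2 : ∑ f ∈ (Finset.univ.filter (fun f : Fin k → Fin n => ¬ Function.Injective f)),
        ‖(A.submatrix f id).det‖ ^ 2 = 0 := by
      refine Finset.sum_eq_zero fun f hf => ?_
      rw [det_zero_of_not_inj A f (by simpa using hf)]
      simp
    rw [h2, add_zero]
    refine Finset.sum_le_sum fun f _ => ?_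
    have := hD f
    have h6 : 0 ≤ ‖(A.submatrix f id).det‖ := norm_nonneg _
    exact pow_le_pow_left₀ h6 this 2
  have hcard : (Finset.univ.filter (fun f : Fin k → Fin n => Function.Injective f)).card =
      n.descFactorial k := by
    have h3 := Fintype.card_embedding_eq (α := Fin k) (β := Fin n)
    rw [Fintype.card_fin, Fintype.card_fin] at h3
    rw [← h3, ← Fintype.card_subtype]
    exact Fintype.card_congr (Equiv.subtypeInjectiveEquivEmbedding _ _)
  rw [Finset.sum_const, hcard, h, nsmul_eq_mul, Nat.descFactorial_eq_factorial_mul_choose] at h1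
  push_cast at h1
  have h4 : (0 : ℝ) < (k.factorial : ℝ) := by positivity
  have h5 : c ^ k ≤ (n.choose k : ℝ) * D ^ 2 := by
    have : (k.factorial : ℝ) * c ^ k ≤ (k.factorial : ℝ) * ((n.choose k : ℝ) * D ^ 2) := by
      nlinarith
    exact (mul_le_mul_iff_right₀ h4).1 this
  have h6 : (n.choose k : ℝ) ≤ 2 ^ n := by
    have := Nat.choose_le_two_pow n k
    exact_mod_cast this
  calc c ^ k ≤ (n.choose k : ℝ) * D ^ 2 := h5
    _ ≤ 2 ^ n * D ^ 2 := by gcongr

end Vale.Agent.P344
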