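import Mathlib

namespace Vale.Agent.P344

/-- A gate of a linear circuit. The natural numbers are positions of wires. -/
inductive Gate where
  | add (a b : ℕ)
  | sub (a b : ℕ)
  | scale (c : ℂ) (a : ℕ)

/-- The value computed by a gate from the list `w` of the values computed so far.
A position beyond the end of the list reads the constant `0`. -/
def Gate.eval {M : Type} [AddCommGroup M] [Module ℂ M] (w : List M) : Gate → M
  | .add a b => w.getD a 0 + w.getD b 0
  | .sub a b => w.getD a 0 - w.getD b 0
  | .scale c a => c • w.getD a 0

/-- Run a circuit (a list of gates): each gate appends its value to the list of wires. -/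
def run {M : Type} [AddCommGroup M] [Module ℂ M] : List Gate → List M → List M
  | [], w => w
  | g :: C, w => run C (w ++ [g.eval w])

/-- The linear circuit `C` on the inputs `x 0, …, x (n-1)` (and the constant `0`)
computes the unnormalised discrete Fourier transform of length `n`. -/
def ComputesDFT (n : ℕ) (C : List Gate) : Prop :=
  ∃ out : Fin n → ℕ, ∀ x : Fin n → ℂ, ∀ k : Fin n,
    (run C (List.ofFn x)).getD (out k) 0 =
      ∑ j : Fin n, Complex.exp (2 * Real.pi * Complex.I / n) ^ ((j : ℕ) * (k : ℕ)) * x j

/-- Number of additions and subtractions of a circuit. -/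
def adds : List Gate → ℕ
  | [] => 0
  | .add _ _ :: C => adds C + 1
  | .sub _ _ :: C => adds C + 1
  | .scale _ _ :: C => adds C

open Classical in
/-- Number of scalar multiplications by a coefficient of modulus greater than `K`. -/
noncomputable def bigs (K : ℝ) : List Gate → ℕ
  | [] => 0
  | .add _ _ :: C => bigs K C
  | .sub _ _ :: C => bigs K C
  | .scale c _ :: C => bigs K C + (if K < ‖c‖ then 1 else 0)

end Vale.Agent.P344
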