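import Vale.Agent.P344.Defs
import Vale.Agent.P344.CB

namespace Vale.Agent.P344
section Lower

open Matrix Finset

section basic
variable {M N : Type} [AddCommGroup M] [Module ℂ M] [AddCommGroup N] [Module ℂ N]

theorem getD_map_zero (φ : M →ₗ[ℂ] N) (w : List M) (i : ℕ) :
    (w.map φ).getD i 0 = φ (w.getD i 0) := by
  rw [← map_zero φ]
  rw [List.getD_map]

theorem eval_map (φ : M →ₗ[ℂ] N) (w : List M) (g : Gate) :
    g.eval (w.map φ) = φ (g.eval w) := by
  cases g <;> simp [Gate.eval, getD_map_zero, -List.getD_eq_getElem?_getD]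

theorem run_map (φ : M →ₗ[ℂ] N) (C : List Gate) (w : List M) :
    run C (w.map φ) = (run C w).map φ := by
  induction C generalizing w with
  | nil => simp [run]
  | cons g C ih =>
    simp only [run]
    rw [← ih]
    congr 1
    simp [eval_map]

theorem getD_append_single (w : List M) (v : M) (i : ℕ) :
    (w ++ [v]).getD i 0 = if i = w.length then v else w.getD i 0 := by
  rcases lt_trichotomy i w.length with h | h | h
  · rw [if_neg h.ne, List.getD_append _ _ _ _ h]
  · subst h
    rw [if_pos rfl, List.getD_append_right _ _ _ _ le_rfl]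
    simp
  · rw [if_neg h.ne', List.getD_eq_default _ _ h.le, List.getD_eq_default]
    simp
    omega

end basic

variable {n : ℕ}

/-- Unit linear forms. -/
def unitForms (n : ℕ) : List (Fin n → ℂ) := List.ofFn (fun j => Pi.single j (1 : ℂ))

/-- Evaluation of a linear form at a point. -/
def evalAt (x : Fin n → ℂ) : (Fin n → ℂ) →ₗ[ℂ] ℂ where
  toFun v := ∑ j, v j * x j
  map_add' u v := by simp [add_mul, Finset.sum_add_distrib]
  map_smul' c v := by simp [Finset.mul_sum, mul_assoc]

theorem map_evalAt_unitForms (x : Fin n → ℂ) : (unitForms n).map (evalAt x) = List.ofFn x := by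
  unfold unitForms
  rw [List.map_ofFn]
  congr 1
  funext j
  simp [evalAt, Function.comp, Pi.single_apply]

/-- Rows of the Fourier matrix. -/
noncomputable def row (n : ℕ) (k : Fin n) : Fin n → ℂ :=
  fun j => Complex.exp (2 * Real.pi * Complex.I / n) ^ ((j : ℕ) * (k : ℕ))

theorem forms_of_computes {C : List Gate} (hC : ComputesDFT n C) :
    ∃ out : Fin n → ℕ, ∀ k, (run C (unitForms n)).getD (out k) 0 = row n k := by
  obtain ⟨out, h⟩ := hC
  refine ⟨out, fun k => ?_⟩
  funext j
  have := h (Pi.single j 1) k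
  rw [← map_evalAt_unitForms, run_map, getD_map_zero] at this
  simpa [evalAt, Pi.single_apply, row] using this

/-! ### Additions -/

/-- Invariant used for counting additions. -/
def Inv (n : ℕ) (w : List (Fin n → ℂ)) (a : ℕ) : Prop :=
  (∃ χ : Fin n → Fin n, n ≤ (Finset.univ.image χ).card + a ∧
    ∀ i j j', w.getD i 0 j ≠ 0 → w.getD i 0 j' ≠ 0 → χ j = χ j') ∧
  ∃ R : Finset (Fin n → ℂ), (R = ∅ ∨ R.card + (n - 2) ≤ a) ∧
    ∀ i, (∀ j, w.getD i 0 j ≠ 0) → ∃ r ∈ R, ∃ c : ℂ, w.getD i 0 = c • r

theorem getD_unitForms (i : ℕ) : (unitForms n).getD i 0 =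
    if h : i < n then Pi.single (⟨i, h⟩ : Fin n) (1 : ℂ) else 0 := by
  unfold unitForms
  split_ifs with h
  · rw [List.getD_eq_getElem _ _ (by simpa using h)]
    simp
  · rw [List.getD_eq_default]
    simpa using h

theorem inv_start (hn : 2 ≤ n) : Inv n (unitForms n) 0 := by
  refine ⟨⟨id, by simp, ?_⟩, ∅, Or.inl rfl, ?_⟩
  · intro i j j' h1 h2
    rw [getD_unitForms] at h1 h2
    split_ifs at h1 h2 with h
    · have e1 : j = ⟨i, h⟩ := by
        by_contra hne
        exact h1 (by simp [Pi.single_apply, hne])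
      have e2 : j' = ⟨i, h⟩ := by
        by_contra hne
        exact h2 (by simp [Pi.single_apply, hne])
      simp [e1, e2]
    · simp at h1
  · intro i hi
    exfalso
    rw [getD_unitForms] at hi
    split_ifs at hi with h
    · have h0 := hi ⟨0, by omega⟩
      have h1 := hi ⟨1, by omega⟩
      simp only [Pi.single_apply, ne_eq, ite_eq_right_iff, one_ne_zero, imp_false, not_not] at h0 h1
      have := h0.trans h1.symm
      simp at this
    · exact (hi ⟨0, by omega⟩) rfl

theorem inv_scale {w : List (Fin n → ℂ)} {a : ℕ} (h : Inv n w a) (c : ℂ) (p : ℕ) :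
    Inv n (w ++ [c • w.getD p 0]) a := by
  obtain ⟨⟨χ, h1, h2⟩, R, h3, h4⟩ := h
  refine ⟨⟨χ, h1, ?_⟩, R, h3, ?_⟩
  · intro i j j'
    rw [getD_append_single]
    split_ifs with hi
    · intro hj hj'
      refine h2 p j j' ?_ ?_
      · intro h0; exact hj (by simp [Pi.smul_apply, h0, -List.getD_eq_getElem?_getD])
      · intro h0; exact hj' (by simp [Pi.smul_apply, h0, -List.getD_eq_getElem?_getD])
    · exact h2 i j j'
  · intro i
    rw [getD_append_single]
    split_ifs with hi
    · intro hfull
      obtain ⟨r, hr, d, hd⟩ := h4 p (fun j h0 => hfull j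
        (by simp [Pi.smul_apply, h0, -List.getD_eq_getElem?_getD]))
      exact ⟨r, hr, c * d, by rw [hd, smul_smul]⟩
    · exact h4 i

theorem inv_add {w : List (Fin n → ℂ)} {a : ℕ} (hn : 2 ≤ n) (h : Inv n w a)
    (p q : ℕ) (v : Fin n → ℂ)
    (hv : ∀ j, v j ≠ 0 → w.getD p 0 j ≠ 0 ∨ w.getD q 0 j ≠ 0) :
    Inv n (w ++ [v]) (a + 1) := by
  classical
  obtain ⟨⟨χ, h1, h2⟩, R, h3, h4⟩ := h
  have hcol : ∃ χ : Fin n → Fin n, n ≤ (Finset.univ.image χ).card + (a + 1) ∧
    ∀ i j j', (w ++ [v]).getD i 0 j ≠ 0 → (w ++ [v]).getD i 0 j' ≠ 0 → χ j = χ j' := by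
    by_cases hp : ∃ jp, w.getD p 0 jp ≠ 0
    · by_cases hq : ∃ jq, w.getD q 0 jq ≠ 0
      · obtain ⟨jp, hjp⟩ := hp
        obtain ⟨jq, hjq⟩ := hq
        let χ' : Fin n → Fin n := fun j => if χ j = χ jq then χ jp else χ j
        refine ⟨χ', ?_, ?_⟩
        · have hsub : (Finset.univ.image χ) ⊆ insert (χ jq) (Finset.univ.image χ') := by
            intro c hc
            simp only [Finset.mem_image, Finset.mem_univ, true_and, Finset.mem_insert] at hc ⊢
            obtain ⟨j, rfl⟩ := hc
            by_cases hj : χ j = χ jq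
            · exact Or.inl hj
            · exact Or.inr ⟨j, by simp [χ', hj]⟩
          have := Finset.card_le_card hsub
          have h5 := Finset.card_insert_le (χ jq) (Finset.univ.image χ')
          omega
        · intro i j j'
          rw [getD_append_single]
          split_ifs with hi
          · intro hj hj'
            have key : ∀ l, v l ≠ 0 → χ' l = χ jp := by
              intro l hl
              rcases hv l hl with h | h
              · have := h2 p l jp h hjp
                simp only [χ']
                split_ifs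
                · rfl
                · exact this
              · have := h2 q l jq h hjq
                simp only [χ']
                rw [if_pos this]
            rw [key j hj, key j' hj']
          · intro hj hj'
            have := h2 i j j' hj hj'
            simp only [χ', this]
      · refine ⟨χ, by omega, ?_⟩
        intro i j j'
        rw [getD_append_single]
        split_ifs with hi
        · intro hj hj'
          push Not at hq
          have a1 := (hv j hj).resolve_right (by simp [hq j, -List.getD_eq_getElem?_getD])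
          have a2 := (hv j' hj').resolve_right (by simp [hq j', -List.getD_eq_getElem?_getD])
          exact h2 p j j' a1 a2
        · exact h2 i j j'
    · refine ⟨χ, by omega, ?_⟩
      intro i j j'
      rw [getD_append_single]
      split_ifs with hi
      · intro hj hj'
        push Not at hp
        have a1 := (hv j hj).resolve_left (by simp [hp j, -List.getD_eq_getElem?_getD])
        have a2 := (hv j' hj').resolve_left (by simp [hp j', -List.getD_eq_getElem?_getD])
        exact h2 q j j' a1 a2
      · exact h2 i j j'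
  refine ⟨hcol, ?_⟩
  by_cases hfull : ∀ j, v j ≠ 0
  · refine ⟨insert v R, Or.inr ?_, ?_⟩
    · rcases h3 with h3 | h3
      · subst h3
        obtain ⟨χ', hc1, hc2⟩ := hcol
        have hconst : (Finset.univ.image χ').card ≤ 1 := by
          rw [Finset.card_le_one]
          intro x hx y hy
          simp only [Finset.mem_image, Finset.mem_univ, true_and] at hx hy
          obtain ⟨j, rfl⟩ := hx
          obtain ⟨j', rfl⟩ := hy
          have := hc2 w.length j j'
          rw [getD_append_single, if_pos rfl] at this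
          exact this (hfull j) (hfull j')
        simp only [insert_empty_eq, Finset.card_singleton]
        omega
      · have := Finset.card_insert_le v R
        omega
    · intro i
      rw [getD_append_single]
      split_ifs with hi
      · intro _
        exact ⟨v, Finset.mem_insert_self _ _, 1, by simp⟩
      · intro h5
        obtain ⟨r, hr, c, hc⟩ := h4 i h5
        exact ⟨r, Finset.mem_insert_of_mem hr, c, hc⟩
  · refine ⟨R, ?_, ?_⟩
    · rcases h3 with h3 | h3
      · exact Or.inl h3
      · exact Or.inr (by omega)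
    · intro i
      rw [getD_append_single]
      split_ifs with hi
      · intro h5
        exact absurd h5 hfull
      · exact h4 i

theorem inv_run (hn : 2 ≤ n) (C : List Gate) (w : List (Fin n → ℂ)) (a : ℕ) (h : Inv n w a) :
    Inv n (run C w) (a + adds C) := by
  induction C generalizing w a with
  | nil => simpa [run, adds] using h
  | cons g C ih =>
    cases g with
    | add p q =>
      have := ih _ _ (inv_add hn h p q (w.getD p 0 + w.getD q 0) (by
        intro j hj
        by_contra hcon
        push Not at hcon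
        exact hj (by simp only [Pi.add_apply, hcon.1, hcon.2, add_zero])))
      simp only [run, adds, Gate.eval]
      rw [show a + (adds C + 1) = a + 1 + adds C by ring]
      exact this
    | sub p q =>
      have := ih _ _ (inv_add hn h p q (w.getD p 0 - w.getD q 0) (by
        intro j hj
        by_contra hcon
        push Not at hcon
        exact hj (by simp only [Pi.sub_apply, hcon.1, hcon.2, sub_zero])))
      simp only [run, adds, Gate.eval]
      rw [show a + (adds C + 1) = a + 1 + adds C by ring]
      exact this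
    | scale c p =>
      have := ih _ _ (inv_scale h c p)
      simpa only [run, adds, Gate.eval] using this

theorem row_ne_zero (k : Fin n) (j : Fin n) : row n k j ≠ 0 := by
  unfold row
  exact pow_ne_zero _ (Complex.exp_ne_zero _)

theorem row_smul_inj (hn : 2 ≤ n) {k l : Fin n} {c : ℂ} (h : row n k = c • row n l) : k = l := by
  have hn0 : n ≠ 0 := by omega
  have hprim := Complex.isPrimitiveRoot_exp n hn0
  have h0 := congrFun h ⟨0, by omega⟩
  have h1 := congrFun h ⟨1, by omega⟩
  simp only [row, zero_mul, pow_zero, Pi.smul_apply, smul_eq_mul, mul_one] at h0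
  simp only [row, one_mul, Pi.smul_apply, smul_eq_mul, ← h0] at h1
  exact Fin.ext (hprim.pow_inj k.2 l.2 h1)

theorem adds_lower (hn : 2 ≤ n) {C : List Gate} (hC : ComputesDFT n C) :
    2 * n - 2 ≤ adds C := by
  classical
  obtain ⟨out, hout⟩ := forms_of_computes hC
  obtain ⟨-, R, hR, hR2⟩ := inv_run hn C _ 0 (inv_start hn)
  have hch : ∀ k : Fin n, ∃ r ∈ R, ∃ c : ℂ, row n k = c • r := by
    intro k
    have := hR2 (out k) (by rw [hout k]; exact row_ne_zero k)
    rwa [hout k] at this
  choose r hr c hc using hch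
  have hinj : Function.Injective (fun k => (⟨r k, hr k⟩ : R)) := by
    intro k l hkl
    have hkl' : r k = r l := by simpa using hkl
    have hcl : c l ≠ 0 := by
      intro h0
      have := row_ne_zero l ⟨0, by omega⟩
      rw [hc l, h0] at this
      simp at this
    have : row n k = (c k * (c l)⁻¹) • row n l := by
      rw [hc k, hc l, smul_smul, hkl']
      congr 1
      field_simp
    exact row_smul_inj hn this
  have hcard : n ≤ R.card := by
    have := Fintype.card_le_of_injective _ hinj
    simpa using this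
  rcases hR with h | h
  · rw [h] at hcard; simp at hcard; omega
  · omega

end Lower
end Vale.Agent.P344

namespace Vale.Agent.P344
section Volume

open Matrix Finset

variable {n k : ℕ}

/-- All `k × k` determinants of projected wires are at most `D`. -/
def Bdd (φ : (Fin n → ℂ) →ₗ[ℂ] (Fin k → ℂ)) (w : List (Fin n → ℂ)) (D : ℝ) : Prop :=
  ∀ f : Fin k → ℕ, ‖(Matrix.of fun i => φ (w.getD (f i) 0)).det‖ ≤ D

theorem bdd_append {φ : (Fin n → ℂ) →ₗ[ℂ] (Fin k → ℂ)} {w : List (Fin n → ℂ)} {D B : ℝ}
    (hD : 0 ≤ D) (hB : 1 ≤ B) (h : Bdd φ w D) (v : Fin n → ℂ)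
    (hv : ∀ (f : Fin k → ℕ) (i : Fin k),
      ‖(Matrix.updateRow (Matrix.of fun i => φ (w.getD (f i) 0)) i (φ v)).det‖ ≤ B * D) :
    Bdd φ (w ++ [v]) (B * D) := by
  classical
  intro f
  have hDB : D ≤ B * D := by nlinarith
  by_cases h1 : ∃ i, f i = w.length
  · obtain ⟨i, hi⟩ := h1
    by_cases h2 : ∃ j, j ≠ i ∧ f j = w.length
    · obtain ⟨j, hji, hj⟩ := h2
      have : (Matrix.of fun i => φ ((w ++ [v]).getD (f i) 0)).det = 0 := by
        refine Matrix.det_zero_of_row_eq hji ?_
        funext l
        simp only [Matrix.of_apply, hi, hj]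
      rw [this, norm_zero]
      exact hD.trans hDB
    · push Not at h2
      have : (Matrix.of fun i => φ ((w ++ [v]).getD (f i) 0)) =
          Matrix.updateRow (Matrix.of fun i => φ (w.getD (f i) 0)) i (φ v) := by
        ext a b
        by_cases ha : a = i
        · subst ha
          rw [Matrix.updateRow_self]
          simp only [Matrix.of_apply]
          rw [getD_append_single, if_pos hi]
        · rw [Matrix.updateRow_ne ha]
          simp only [Matrix.of_apply]
          rw [getD_append_single, if_neg (h2 a ha)]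
      rw [this]
      exact hv f i
  · push Not at h1
    have : (Matrix.of fun i => φ ((w ++ [v]).getD (f i) 0)) =
        (Matrix.of fun i => φ (w.getD (f i) 0)) := by
      ext a b
      simp only [Matrix.of_apply]
      rw [getD_append_single, if_neg (h1 a)]
    rw [this]
    exact (h f).trans hDB

theorem updateRow_wire (φ : (Fin n → ℂ) →ₗ[ℂ] (Fin k → ℂ)) (w : List (Fin n → ℂ))
    (f : Fin k → ℕ) (i : Fin k) (p : ℕ) :
    Matrix.updateRow (Matrix.of fun i => φ (w.getD (f i) 0)) i (φ (w.getD p 0)) =
      Matrix.of fun j => φ (w.getD (Function.update f i p j) 0) := by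
  ext a b
  by_cases ha : a = i
  · subst ha
    rw [Matrix.updateRow_self]
    simp
  · rw [Matrix.updateRow_ne ha]
    simp [Function.update_of_ne ha]

theorem bdd_add {φ : (Fin n → ℂ) →ₗ[ℂ] (Fin k → ℂ)} {w : List (Fin n → ℂ)} {D : ℝ}
    (hD : 0 ≤ D) (h : Bdd φ w D) (p q : ℕ) : Bdd φ (w ++ [w.getD p 0 + w.getD q 0]) (2 * D) := by
  refine bdd_append hD (by norm_num) h _ fun f i => ?_
  rw [map_add, Matrix.det_updateRow_add, updateRow_wire, updateRow_wire]
  refine (norm_add_le _ _).trans ?_
  have h1 := h (Function.update f i p)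
  have h2 := h (Function.update f i q)
  linarith

theorem bdd_sub {φ : (Fin n → ℂ) →ₗ[ℂ] (Fin k → ℂ)} {w : List (Fin n → ℂ)} {D : ℝ}
    (hD : 0 ≤ D) (h : Bdd φ w D) (p q : ℕ) : Bdd φ (w ++ [w.getD p 0 - w.getD q 0]) (2 * D) := by
  refine bdd_append hD (by norm_num) h _ fun f i => ?_
  have e : φ (w.getD p 0 - w.getD q 0) = φ (w.getD p 0) + (-1 : ℂ) • φ (w.getD q 0) := by
    rw [map_sub, neg_one_smul, sub_eq_add_neg]
  rw [e, Matrix.det_updateRow_add, Matrix.det_updateRow_smul, updateRow_wire, updateRow_wire]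
  refine (norm_add_le _ _).trans ?_
  have h1 := h (Function.update f i p)
  have h2 := h (Function.update f i q)
  rw [norm_mul, norm_neg, norm_one, one_mul]
  linarith

theorem bdd_scale_small {φ : (Fin n → ℂ) →ₗ[ℂ] (Fin k → ℂ)} {w : List (Fin n → ℂ)} {D K : ℝ}
    (hD : 0 ≤ D) (hK : 1 ≤ K) (h : Bdd φ w D) (p : ℕ) (c : ℂ) (hc : ‖c‖ ≤ K) :
    Bdd φ (w ++ [c • w.getD p 0]) (K * D) := by
  refine bdd_append hD hK h _ fun f i => ?_
  rw [map_smul, Matrix.det_updateRow_smul, updateRow_wire, norm_mul]
  have h1 := h (Function.update f i p)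
  exact mul_le_mul hc h1 (norm_nonneg _) (by linarith)

theorem bdd_scale_big {φ : (Fin n → ℂ) →ₗ[ℂ] (Fin k → ℂ)} {w : List (Fin n → ℂ)} {D : ℝ}
    (hD : 0 ≤ D) (h : Bdd φ w D) (p : ℕ) (c : ℂ) (hc : φ (w.getD p 0) = 0) :
    Bdd φ (w ++ [c • w.getD p 0]) D := by
  have := bdd_append hD le_rfl h (c • w.getD p 0) (fun f i => by
    rw [map_smul, hc, smul_zero]
    rw [Matrix.det_eq_zero_of_row_eq_zero i (by intro j; rw [Matrix.updateRow_self]; rfl)]
    simpa using hD)
  simpa using this

open Classical in
/-- The forms to which the large scalar multiplications are applied. -/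
noncomputable def bigForms (K : ℝ) : List Gate → List (Fin n → ℂ) → List (Fin n → ℂ)
  | [], _ => []
  | .add p q :: C, w => bigForms K C (w ++ [w.getD p 0 + w.getD q 0])
  | .sub p q :: C, w => bigForms K C (w ++ [w.getD p 0 - w.getD q 0])
  | .scale c p :: C, w =>
      (if K < ‖c‖ then [w.getD p 0] else []) ++ bigForms K C (w ++ [c • w.getD p 0])

open Classical in
/-- Number of scalar multiplications by a coefficient of modulus at most `K`. -/
noncomputable def smalls (K : ℝ) : List Gate → ℕ
  | [] => 0
  | .add _ _ :: C => smalls K C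
  | .sub _ _ :: C => smalls K C
  | .scale c _ :: C => smalls K C + (if K < ‖c‖ then 0 else 1)

theorem length_bigForms (K : ℝ) (C : List Gate) (w : List (Fin n → ℂ)) :
    (bigForms K C w).length = bigs K C := by
  induction C generalizing w with
  | nil => rfl
  | cons g C ih =>
    cases g with
    | add p q => simpa [bigForms, bigs] using ih _
    | sub p q => simpa [bigForms, bigs] using ih _
    | scale c p =>
      simp only [bigForms, bigs, List.length_append, ih]
      split_ifs <;> simp [add_comm]

theorem length_eq (K : ℝ) (C : List Gate) : C.length = adds C + bigs K C + smalls K C := by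
  induction C with
  | nil => rfl
  | cons g C ih =>
    cases g with
    | add p q => simp only [List.length_cons, adds, bigs, smalls, ih]; ring
    | sub p q => simp only [List.length_cons, adds, bigs, smalls, ih]; ring
    | scale c p =>
      simp only [List.length_cons, adds, bigs, smalls, ih]
      split_ifs <;> ring

theorem bdd_run {φ : (Fin n → ℂ) →ₗ[ℂ] (Fin k → ℂ)} {K : ℝ} (hK : 1 ≤ K) (C : List Gate)
    (w : List (Fin n → ℂ)) (D : ℝ) (hD : 0 ≤ D) (h : Bdd φ w D)
    (hbig : ∀ v ∈ bigForms K C w, φ v = 0) :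
    Bdd φ (run C w) (2 ^ adds C * K ^ smalls K C * D) := by
  induction C generalizing w D with
  | nil => simpa [run, adds, smalls] using h
  | cons g C ih =>
    cases g with
    | add p q =>
      have := ih _ (2 * D) (by positivity) (bdd_add hD h p q) (by simpa [bigForms] using hbig)
      simp only [run, adds, smalls, Gate.eval]
      convert this using 1
      ring
    | sub p q =>
      have := ih _ (2 * D) (by positivity) (bdd_sub hD h p q) (by simpa [bigForms] using hbig)
      simp only [run, adds, smalls, Gate.eval]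
      convert this using 1
      ring
    | scale c p =>
      simp only [run, adds, smalls, Gate.eval]
      by_cases hc : K < ‖c‖
      · simp only [bigForms, if_pos hc] at hbig
        have := ih _ D hD (bdd_scale_big hD h p c (hbig _ (by simp)))
          (fun v hv => hbig v (List.mem_append_right _ hv))
        rw [if_pos hc]
        simpa using this
      · simp only [bigForms, if_neg hc] at hbig
        have := ih _ (K * D) (by positivity)
          (bdd_scale_small hD hK h p c (not_lt.1 hc)) (fun v hv => hbig v (by simpa using hv))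
        rw [if_neg hc]
        convert this using 1
        ring

/-- Orthonormal columns annihilated by a given list of forms. -/
theorem exists_frame (l : List (Fin n → ℂ)) :
    ∃ k, n ≤ k + l.length ∧ k ≤ n ∧ ∃ Q : Matrix (Fin n) (Fin k) ℂ, Qᴴ * Q = 1 ∧
      ∀ v ∈ l, ∀ i, ∑ j, v j * Q j i = 0 := by
  classical
  let E := EuclideanSpace ℂ (Fin n)
  let T : Submodule ℂ E :=
    Submodule.span ℂ (Set.range fun i : Fin l.length => (WithLp.toLp 2 (star (l.get i)) : E))
  have hT : Module.finrank ℂ T ≤ l.length := by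
    have := finrank_range_le_card (R := ℂ)
      (fun i : Fin l.length => (WithLp.toLp 2 (star (l.get i)) : E))
    rw [Fintype.card_fin] at this
    exact this
  have hsum : Module.finrank ℂ T + Module.finrank ℂ Tᗮ = n := by
    have := Submodule.finrank_add_finrank_orthogonal T
    simpa [E] using this
  refine ⟨Module.finrank ℂ Tᗮ, by omega, by omega, ?_⟩
  let b := stdOrthonormalBasis ℂ Tᗮ
  refine ⟨Matrix.of fun j i => (b i : E) j, ?_, ?_⟩
  · ext i i'
    have := orthonormal_iff_ite.1 b.orthonormal i i'
    rw [Submodule.coe_inner, PiLp.inner_apply] at this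
    simp only [Matrix.mul_apply, Matrix.conjTranspose_apply, Matrix.of_apply, Matrix.one_apply]
    rw [← this]
    refine Finset.sum_congr rfl fun j _ => ?_
    simp [mul_comm]
  · intro v hv i
    obtain ⟨m, hm⟩ := List.mem_iff_get.1 hv
    have hmem : (WithLp.toLp 2 (star v) : E) ∈ T :=
      Submodule.subset_span ⟨m, by simp only [hm]⟩
    have := Submodule.inner_right_of_mem_orthogonal hmem (b i).2
    rw [PiLp.inner_apply] at this
    simp only [Matrix.of_apply]
    rw [← this]
    refine Finset.sum_congr rfl fun j _ => ?_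
    simp [mul_comm]

/-- The linear map `v ↦ v Q`. -/
noncomputable def proj (Q : Matrix (Fin n) (Fin k) ℂ) : (Fin n → ℂ) →ₗ[ℂ] (Fin k → ℂ) where
  toFun v := fun i => ∑ j, v j * Q j i
  map_add' u v := by ext i; simp [add_mul, Finset.sum_add_distrib]
  map_smul' c v := by ext i; simp [Finset.mul_sum, mul_assoc]

theorem bdd_start (Q : Matrix (Fin n) (Fin k) ℂ) (hQ : Qᴴ * Q = 1) :
    Bdd (proj Q) (unitForms n) 1 := by
  intro f
  by_cases h : ∀ i, f i < n
  · have : (Matrix.of fun i => proj Q ((unitForms n).getD (f i) 0)) =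
        Q.submatrix (fun i => (⟨f i, h i⟩ : Fin n)) id := by
      ext a b
      simp only [Matrix.of_apply, getD_unitForms, h a, dite_true, proj, LinearMap.coe_mk,
        AddHom.coe_mk, Matrix.submatrix_apply, id]
      simp [Pi.single_apply]
    rw [this]
    exact norm_minor_le_one Q hQ _
  · push Not at h
    obtain ⟨i, hi⟩ := h
    rw [Matrix.det_eq_zero_of_row_eq_zero i, norm_zero]
    · norm_num
    · intro j
      simp only [Matrix.of_apply, getD_unitForms, not_lt.2 hi, dite_false, map_zero]
      rfl

/-- The Fourier matrix. -/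
noncomputable def F (n : ℕ) : Matrix (Fin n) (Fin n) ℂ := Matrix.of fun k j => row n k j

theorem F_unitary (hn : 2 ≤ n) : (F n)ᴴ * F n = (n : ℂ) • (1 : Matrix (Fin n) (Fin n) ℂ) := by
  have hn0 : n ≠ 0 := by omega
  have hprim := Complex.isPrimitiveRoot_exp n hn0
  set ζ := Complex.exp (2 * Real.pi * Complex.I / n) with hζ
  have hζ0 : ζ ≠ 0 := Complex.exp_ne_zero _
  have hnorm : ‖ζ‖ = 1 := hprim.norm'_eq_one hn0
  have hconj : (starRingEnd ℂ) ζ = ζ⁻¹ := (Complex.inv_eq_conj hnorm).symm
  ext i j
  simp only [Matrix.mul_apply, Matrix.conjTranspose_apply, F, Matrix.of_apply, row, ← hζ,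
    Matrix.smul_apply, Matrix.one_apply, smul_eq_mul]
  have hterm : ∀ k : Fin n, star (ζ ^ ((i : ℕ) * (k : ℕ))) * ζ ^ ((j : ℕ) * (k : ℕ)) =
      ((ζ⁻¹) ^ (i : ℕ) * ζ ^ (j : ℕ)) ^ (k : ℕ) := by
    intro k
    rw [star_pow, Complex.star_def, hconj, mul_pow, ← pow_mul, ← pow_mul]
  simp only [hterm]
  rw [Fin.sum_univ_eq_sum_range (fun k => ((ζ⁻¹) ^ (i : ℕ) * ζ ^ (j : ℕ)) ^ k) n]
  by_cases hij : i = j
  · subst hij
    have : (ζ⁻¹) ^ (i : ℕ) * ζ ^ (i : ℕ) = 1 := by
      rw [← mul_pow, inv_mul_cancel₀ hζ0, one_pow]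
    simp only [this]
    simp
  · rw [if_neg hij, mul_zero]
    have hne : (ζ⁻¹) ^ (i : ℕ) * ζ ^ (j : ℕ) ≠ 1 := by
      intro h
      apply hij
      have h2 : ζ ^ (j : ℕ) = ζ ^ (i : ℕ) := by
        have : ζ ^ (i : ℕ) * ((ζ⁻¹) ^ (i : ℕ) * ζ ^ (j : ℕ)) = ζ ^ (i : ℕ) := by
          rw [h, mul_one]
        rw [← mul_assoc, ← mul_pow, mul_inv_cancel₀ hζ0, one_pow, one_mul] at this
        exact this
      exact Fin.ext (hprim.pow_inj i.2 j.2 h2.symm)
    have hpow : ((ζ⁻¹) ^ (i : ℕ) * ζ ^ (j : ℕ)) ^ n = 1 := by
      rw [mul_pow, ← pow_mul, ← pow_mul, mul_comm (i : ℕ), mul_comm (j : ℕ), pow_mul, pow_mul,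
        inv_pow, hprim.pow_eq_one]
      simp
    have := mul_geom_sum ((ζ⁻¹) ^ (i : ℕ) * ζ ^ (j : ℕ)) n
    rw [hpow, sub_self] at this
    exact (mul_eq_zero.1 this).resolve_left (sub_ne_zero.2 hne)

/-- The volume inequality. -/
theorem volume_ineq (hn : 2 ≤ n) {C : List Gate} (hC : ComputesDFT n C) {K : ℝ} (hK : 1 ≤ K) :
    (n : ℝ) ^ (n - bigs K C) ≤ 2 ^ n * (2 ^ adds C * K ^ smalls K C) ^ 2 := by
  obtain ⟨out, hout⟩ := forms_of_computes hC
  obtain ⟨k, hk1, hk2, Q, hQ, hQ2⟩ := exists_frame (bigForms K C (unitForms n))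
  rw [length_bigForms] at hk1
  have hb := bdd_run (φ := proj Q) hK C (unitForms n) 1 zero_le_one (bdd_start Q hQ)
    (fun v hv => by
      ext i
      exact hQ2 v hv i)
  rw [mul_one] at hb
  have hA : (F n * Q)ᴴ * (F n * Q) = ((n : ℝ) : ℂ) • (1 : Matrix (Fin k) (Fin k) ℂ) := by
    rw [Matrix.conjTranspose_mul, Matrix.mul_assoc, ← Matrix.mul_assoc (F n)ᴴ, F_unitary hn,
      Matrix.smul_mul, Matrix.one_mul, Matrix.mul_smul, hQ]
    simp
  have h2 := pow_le_of_minors (F n * Q) n (hA := hA) (D := 2 ^ adds C * K ^ smalls K C) (fun f => by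
    have := hb (fun i => out (f i))
    convert this using 3
    ext a b
    rw [Matrix.submatrix_apply, Matrix.of_apply, hout]
    rfl)
  refine le_trans ?_ h2
  refine pow_le_pow_right₀ ?_ (by omega)
  exact_mod_cast (by omega : 1 ≤ n)

end Volume
end Vale.Agent.P344

namespace Vale.Agent.P344
section Complete

open Finset

/-- New position of an old wire. -/
def pos (n p : ℕ) : ℕ := if p < n then p else n + 3 * (p - n) + 2

/-- Scale of an old wire. -/
noncomputable def sc (n : ℕ) (δ : ℂ) (p : ℕ) : ℂ := if p < n then 1 else δ ^ (p - n + 1)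

/-- Coefficient used when gate number `i` reads the old wire `p`. -/
noncomputable def coef (n : ℕ) (δ : ℂ) (i p : ℕ) : ℂ :=
  if p < n + i then δ ^ (i + 1) / sc n δ p else 0

/-- Translation of a gate. -/
noncomputable def tr (n : ℕ) (δ : ℂ) (i : ℕ) : Gate → List Gate
  | .add a b => [.scale (coef n δ i a) (pos n a), .scale (coef n δ i b) (pos n b),
      .add (n + 3 * i) (n + 3 * i + 1)]
  | .sub a b => [.scale (coef n δ i a) (pos n a), .scale (coef n δ i b) (pos n b),
      .sub (n + 3 * i) (n + 3 * i + 1)]
  | .scale c a => [.scale (c * coef n δ i a) (pos n a), .scale 0 0,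
      .add (n + 3 * i) (n + 3 * i + 1)]

/-- Translation of a circuit. -/
noncomputable def trs (n : ℕ) (δ : ℂ) : ℕ → List Gate → List Gate
  | _, [] => []
  | i, g :: C => tr n δ i g ++ trs n δ (i + 1) C

theorem length_trs (n : ℕ) (δ : ℂ) (i : ℕ) (C : List Gate) :
    (trs n δ i C).length = 3 * C.length := by
  induction C generalizing i with
  | nil => rfl
  | cons g C ih =>
    cases g <;> simp [trs, tr, ih] <;> ring

theorem run_append {M : Type} [AddCommGroup M] [Module ℂ M] (C D : List Gate) (w : List M) :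
    run (C ++ D) w = run D (run C w) := by
  induction C generalizing w with
  | nil => rfl
  | cons g C ih => simp [run, ih]

theorem length_run {M : Type} [AddCommGroup M] [Module ℂ M] (C : List Gate) (w : List M) :
    (run C w).length = w.length + C.length := by
  induction C generalizing w with
  | nil => rfl
  | cons g C ih => simp [run, ih]; ring

theorem pos_lt {n i p : ℕ} (h : p < n + i) : pos n p < n + 3 * i := by
  unfold pos; split_ifs <;> omega

theorem pos_lt_iff {n i p : ℕ} : p < n + i ↔ pos n p < n + 3 * i := by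
  unfold pos; split_ifs <;> omega

theorem sc_ne {n p : ℕ} {δ : ℂ} (h : δ ≠ 0) : sc n δ p ≠ 0 := by
  unfold sc; split_ifs
  · exact one_ne_zero
  · exact pow_ne_zero _ h

/-- Simulation relation. -/
def Sim (n : ℕ) (δ : ℂ) (i : ℕ) (w w' : List ℂ) : Prop :=
  w.length = n + i ∧ w'.length = n + 3 * i ∧
    ∀ p < n + i, w'.getD (pos n p) 0 = sc n δ p * w.getD p 0

theorem getD_ge {w : List ℂ} {p : ℕ} (h : w.length ≤ p) : w.getD p 0 = 0 :=
  List.getD_eq_default _ _ h

theorem read {n i : ℕ} {δ : ℂ} (hδ : δ ≠ 0) {w w' : List ℂ} (h : Sim n δ i w w') (p : ℕ) :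
    coef n δ i p * w'.getD (pos n p) 0 = δ ^ (i + 1) * w.getD p 0 := by
  unfold coef
  split_ifs with hp
  · rw [h.2.2 p hp]
    have := sc_ne (n := n) (p := p) hδ
    field_simp
  · rw [getD_ge (w := w) (by rw [h.1]; omega)]
    simp

theorem sim_step {n i : ℕ} {δ : ℂ} (hδ : δ ≠ 0) {w w' : List ℂ} (h : Sim n δ i w w')
    (g : Gate) : Sim n δ (i + 1) (w ++ [g.eval w]) (run (tr n δ i g) w') := by
  have hl := h.2.1
  have key : ∀ (a b : ℂ) (v : ℂ), v = δ ^ (i + 1) * g.eval w →
      run (tr n δ i g) w' = w' ++ [a] ++ [b] ++ [v] →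
      Sim n δ (i + 1) (w ++ [g.eval w]) (run (tr n δ i g) w') := by
    intro a b v hv hr
    refine ⟨by simp [h.1]; ring, by rw [hr]; simp [hl]; ring, ?_⟩
    intro p hp
    rw [hr, getD_append_single, getD_append_single, getD_append_single, getD_append_single]
    by_cases hpi : p = n + i
    · subst hpi
      have e1 : pos n (n + i) = n + 3 * i + 2 := by
        unfold pos; split_ifs <;> omega
      rw [e1, if_pos (by simp [hl]), if_pos h.1.symm, hv]
      unfold sc
      rw [if_neg (by omega)]
      congr 2
      omega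
    · have hp' : p < n + i := by omega
      have h3 := pos_lt hp'
      rw [if_neg (by simp [hl]; omega), if_neg (by simp [hl]; omega), if_neg (by omega),
        if_neg (by rw [h.1]; omega)]
      exact h.2.2 p hp'
  cases g with
  | add a b =>
    refine key (coef n δ i a * w'.getD (pos n a) 0) (coef n δ i b * w'.getD (pos n b) 0)
      (δ ^ (i + 1) * (w.getD a 0 + w.getD b 0)) rfl ?_
    have hb : ∀ x : ℂ, (w' ++ [x]).getD (pos n b) 0 = w'.getD (pos n b) 0 := by
      intro x
      rw [getD_append_single]
      split_ifs with hh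
      · exfalso
        unfold pos at hh
        split_ifs at hh <;> omega
      · rfl
    simp only [tr, run, Gate.eval, smul_eq_mul, hb]
    congr 2
    · rw [getD_append_single, getD_append_single, getD_append_single]
      rw [if_neg (by simp [hl]), if_pos (by rw [hl]), if_pos (by simp [hl]), mul_add,
        read hδ h, read hδ h]
  | sub a b =>
    refine key (coef n δ i a * w'.getD (pos n a) 0) (coef n δ i b * w'.getD (pos n b) 0)
      (δ ^ (i + 1) * (w.getD a 0 - w.getD b 0)) rfl ?_
    have hb : ∀ x : ℂ, (w' ++ [x]).getD (pos n b) 0 = w'.getD (pos n b) 0 := by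
      intro x
      rw [getD_append_single]
      split_ifs with hh
      · exfalso
        unfold pos at hh
        split_ifs at hh <;> omega
      · rfl
    simp only [tr, run, Gate.eval, smul_eq_mul, hb]
    congr 2
    · rw [getD_append_single, getD_append_single, getD_append_single]
      rw [if_neg (by simp [hl]), if_pos (by rw [hl]), if_pos (by simp [hl]), mul_sub,
        read hδ h, read hδ h]
  | scale c a =>
    refine key (c * coef n δ i a * w'.getD (pos n a) 0) 0
      (δ ^ (i + 1) * (c • w.getD a 0)) rfl ?_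
    simp only [tr, run, Gate.eval, smul_eq_mul, zero_mul]
    congr 2
    rw [getD_append_single, getD_append_single, getD_append_single, getD_append_single]
    rw [if_neg (by simp [hl]), if_pos (by rw [hl]), if_pos (by simp [hl]), add_zero, mul_assoc,
      read hδ h]
    ring

theorem sim_run {n i : ℕ} {δ : ℂ} (hδ : δ ≠ 0) (C : List Gate) {w w' : List ℂ}
    (h : Sim n δ i w w') : Sim n δ (i + C.length) (run C w) (run (trs n δ i C) w') := by
  induction C generalizing i w w' with
  | nil => simpa [run, trs] using h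
  | cons g C ih =>
    have := ih (sim_step hδ h g)
    simp only [run, trs, run_append, List.length_cons]
    rw [show i + (C.length + 1) = i + 1 + C.length by ring]
    exact this

theorem bigs_append (K : ℝ) (C D : List Gate) : bigs K (C ++ D) = bigs K C + bigs K D := by
  induction C with
  | nil => simp [bigs]
  | cons g C ih =>
    cases g <;> simp only [List.cons_append, bigs, ih]
    ring

theorem norm_coef_le {n i p : ℕ} {δ : ℝ} (h0 : 0 < δ) (h1 : δ ≤ 1) :
    ‖coef n (δ : ℂ) i p‖ ≤ δ := by
  unfold coef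
  split_ifs with hp
  · unfold sc
    split_ifs with hpn
    · rw [div_one, norm_pow, Complex.norm_real, Real.norm_of_nonneg h0.le]
      calc δ ^ (i + 1) ≤ δ ^ 1 := pow_le_pow_of_le_one h0.le h1 (by omega)
        _ = δ := pow_one δ
    · rw [norm_div, norm_pow, norm_pow, Complex.norm_real, Real.norm_of_nonneg h0.le]
      rw [div_le_iff₀ (by positivity)]
      calc δ ^ (i + 1) ≤ δ ^ (1 + (p - n + 1)) := pow_le_pow_of_le_one h0.le h1 (by omega)
        _ = δ * δ ^ (p - n + 1) := by rw [pow_add, pow_one]
  · simpa using h0.le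

theorem exists_bound (C : List Gate) : ∃ Λ : ℝ, 1 ≤ Λ ∧ ∀ c a, Gate.scale c a ∈ C → ‖c‖ ≤ Λ := by
  induction C with
  | nil => exact ⟨1, le_rfl, by simp⟩
  | cons g C ih =>
    obtain ⟨Λ, h1, h2⟩ := ih
    cases g with
    | add a b => exact ⟨Λ, h1, fun c a h => h2 c a (by simpa using h)⟩
    | sub a b => exact ⟨Λ, h1, fun c a h => h2 c a (by simpa using h)⟩
    | scale d a =>
      refine ⟨max Λ ‖d‖, h1.trans (le_max_left _ _), fun c b h => ?_⟩
      rcases List.mem_cons.1 h with h | h
      · have : c = d := by injection h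
        rw [this]; exact le_max_right _ _
      · exact (h2 c b h).trans (le_max_left _ _)

theorem bigs_trs {n i : ℕ} {Λ : ℝ} (hΛ : 1 ≤ Λ) (C : List Gate)
    (h : ∀ c a, Gate.scale c a ∈ C → ‖c‖ ≤ Λ) :
    bigs 1 (trs n ((Λ⁻¹ : ℝ) : ℂ) i C) = 0 := by
  have h0 : 0 < Λ := by linarith
  have hi0 : 0 < Λ⁻¹ := by positivity
  have hi1 : Λ⁻¹ ≤ 1 := inv_le_one_of_one_le₀ hΛ
  have hco : ∀ j p, ¬ (1 < ‖coef n ((Λ⁻¹ : ℝ) : ℂ) j p‖) := by
    intro j p
    have := norm_coef_le (n := n) (i := j) (p := p) hi0 hi1
    linarith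
  induction C generalizing i with
  | nil => rfl
  | cons g C ih =>
    have ih' := ih (i := i + 1) (fun c a hc => h c a (List.mem_cons_of_mem _ hc))
    simp only [trs, bigs_append, ih']
    cases g with
    | add a b => simp only [tr, bigs, if_neg (hco _ _)]
    | sub a b => simp only [tr, bigs, if_neg (hco _ _)]
    | scale c a =>
      have hc := h c a (by simp)
      have : ¬ (1 < ‖c * coef n ((Λ⁻¹ : ℝ) : ℂ) i a‖) := by
        rw [norm_mul]
        have h3 := norm_coef_le (n := n) (i := i) (p := a) hi0 hi1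
        have h4 : ‖c‖ * ‖coef n ((Λ⁻¹ : ℝ) : ℂ) i a‖ ≤ Λ * Λ⁻¹ :=
          mul_le_mul hc h3 (norm_nonneg _) h0.le
        rw [mul_inv_cancel₀ h0.ne'] at h4
        linarith
      simp only [tr, bigs, if_neg this]
      norm_num

theorem run_scales (l : List (ℂ × ℕ)) (w : List ℂ) (hl : ∀ q ∈ l, q.2 < w.length) :
    run (l.map fun q => Gate.scale q.1 q.2) w = w ++ l.map (fun q => q.1 * w.getD q.2 0) := by
  induction l generalizing w with
  | nil => simp [run]
  | cons q l ih =>
    simp only [List.map_cons, run]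
    have h1 : ∀ q' ∈ l, q'.2 < (w ++ [(Gate.scale q.1 q.2).eval w]).length := by
      intro q' hq'
      have := hl q' (List.mem_cons_of_mem _ hq')
      simp; omega
    rw [ih _ h1, List.append_assoc]
    congr 1
    simp only [Gate.eval, smul_eq_mul, List.singleton_append]
    congr 1
    refine List.map_congr_left fun q' hq' => ?_
    rw [getD_append_single, if_neg (hl q' (List.mem_cons_of_mem _ hq')).ne]

theorem bigs_scales (l : List (ℂ × ℕ)) (K : ℝ) :
    bigs K (l.map fun q => Gate.scale q.1 q.2) ≤ l.length := by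
  induction l with
  | nil => simp [bigs]
  | cons q l ih =>
    simp only [List.map_cons, bigs, List.length_cons]
    split_ifs <;> omega

/-- Every circuit for the Fourier transform can be rewritten with at most `n` multiplications
by scalars of modulus larger than one. -/
theorem complete {n : ℕ} {C : List Gate} (hC : ComputesDFT n C) :
    ∃ C', ComputesDFT n C' ∧ C'.length = 3 * C.length + n ∧ bigs 1 C' ≤ n := by
  obtain ⟨out, hout⟩ := hC
  obtain ⟨Λ, hΛ, hC2⟩ := exists_bound C
  set δ : ℂ := ((Λ⁻¹ : ℝ) : ℂ) with hδdef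
  have hδ : δ ≠ 0 := by
    rw [hδdef]
    have : Λ ≠ 0 := by linarith
    exact_mod_cast inv_ne_zero this
  let l : List (ℂ × ℕ) := List.ofFn fun k : Fin n =>
    if out k < n + C.length then ((sc n δ (out k))⁻¹, pos n (out k)) else (0, 0)
  refine ⟨trs n δ 0 C ++ l.map (fun q => Gate.scale q.1 q.2), ?_, ?_, ?_⟩
  · refine ⟨fun k => n + 3 * C.length + k, fun x k => ?_⟩
    have hs0 : Sim n δ 0 (List.ofFn x) (List.ofFn x) := by
      refine ⟨by simp, by simp, fun p hp => ?_⟩
      have hp' : p < n := by omega
      simp [pos, sc, hp']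
    have hs := sim_run hδ C hs0
    rw [zero_add] at hs
    show (run (trs n δ 0 C ++ l.map (fun q => Gate.scale q.1 q.2)) (List.ofFn x)).getD
      (n + 3 * C.length + (k : ℕ)) 0 = _
    rw [run_append, run_scales]
    · rw [List.getD_append_right _ _ _ _ (by rw [hs.2.1]; exact Nat.le_add_right _ _)]
      rw [hs.2.1]
      have e : n + 3 * C.length + (k : ℕ) - (n + 3 * C.length) = k := by omega
      rw [e, ← hout x k]
      simp only [l, List.map_ofFn]
      rw [List.getD_eq_getElem _ _ (by simp)]
      rw [List.getElem_ofFn]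
      simp only [Function.comp, Fin.eta]
      split_ifs with hk
      · rw [hs.2.2 _ hk, ← mul_assoc, inv_mul_cancel₀ (sc_ne hδ), one_mul]
      · rw [zero_mul, getD_ge (w := run C (List.ofFn x)) (by rw [hs.1]; omega)]
    · intro q hq
      simp only [l, List.mem_ofFn] at hq
      obtain ⟨k, rfl⟩ := hq
      have hn : 0 < n := k.pos
      split_ifs with hk
      · rw [hs.2.1]
        exact pos_lt hk
      · rw [hs.2.1]
        simp only
        omega
  · rw [List.length_append, length_trs]
    simp [l]
  · rw [bigs_append, bigs_trs hΛ C hC2, zero_add]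
    refine (bigs_scales l 1).trans ?_
    simp [l]

end Complete
end Vale.Agent.P344

namespace Vale.Agent.P344
section Final

theorem bigs_lower {n : ℕ} (hn : 2 ≤ n) {C : List Gate} (hC : ComputesDFT n C) :
    (n : ℝ) - (2 * C.length + n) / Real.logb 2 n ≤ (bigs 2 C : ℝ) := by
  have hv := volume_ineq hn hC (K := 2) (by norm_num)
  have hlen := length_eq 2 C
  have hn1 : (1 : ℝ) < n := by exact_mod_cast (by omega : 1 < n)
  have hn0 : (0 : ℝ) < n := by linarith
  have hlog : 0 < Real.logb 2 n := Real.logb_pos (by norm_num) hn1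
  have h2 : (2 : ℝ) ^ n * (2 ^ adds C * 2 ^ smalls 2 C) ^ 2 =
      2 ^ (n + 2 * (adds C + smalls 2 C)) := by
    rw [← pow_add, ← pow_mul, ← pow_add]; ring_nf
  rw [h2] at hv
  have h3 := Real.logb_le_logb_of_le (b := 2) (by norm_num) (by positivity) hv
  rw [Real.logb_pow, Real.logb_pow, Real.logb_self_eq_one (by norm_num), mul_one] at h3
  have h4 : ((n : ℝ) - bigs 2 C) * Real.logb 2 n ≤ n + 2 * C.length := by
    by_cases hb : bigs 2 C ≤ n
    · have e1 : ((n - bigs 2 C : ℕ) : ℝ) = (n : ℝ) - bigs 2 C := by
        push_cast [Nat.cast_sub hb]; ring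
      rw [e1] at h3
      refine h3.trans ?_
      have : ((n + 2 * (adds C + smalls 2 C) : ℕ) : ℝ) ≤ ((n + 2 * C.length : ℕ) : ℝ) := by
        exact_mod_cast (by omega)
      calc ((n + 2 * (adds C + smalls 2 C) : ℕ) : ℝ) ≤ ((n + 2 * C.length : ℕ) : ℝ) := this
        _ = n + 2 * C.length := by push_cast; ring
    · have : (n : ℝ) - bigs 2 C ≤ 0 := by
        have : (n : ℝ) ≤ bigs 2 C := by exact_mod_cast (by omega : n ≤ bigs 2 C)
        linarith
      have h5 : ((n : ℝ) - bigs 2 C) * Real.logb 2 n ≤ 0 :=
        mul_nonpos_of_nonpos_of_nonneg this hlog.le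
      have : (0 : ℝ) ≤ n + 2 * C.length := by positivity
      linarith
  have h5 : (n : ℝ) - bigs 2 C ≤ (2 * C.length + n) / Real.logb 2 n := by
    rw [le_div_iff₀ hlog]; linarith
  linarith

theorem length_lower {n : ℕ} (hn : 2 ≤ n) {C : List Gate} (hC : ComputesDFT n C) :
    3 * (n : ℝ) - 7 * n / Real.logb 2 n - 2 ≤ (C.length : ℝ) := by
  have hn1 : (1 : ℝ) < n := by exact_mod_cast (by omega : 1 < n)
  have hn0 : (0 : ℝ) < n := by linarith
  have hlog : 0 < Real.logb 2 n := Real.logb_pos (by norm_num) hn1
  have h1 := bigs_lower hn hC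
  have h2 := adds_lower hn hC
  have hlen := length_eq 2 C
  by_cases h3 : 3 * n ≤ C.length
  · have h4 : (3 : ℝ) * n ≤ C.length := by exact_mod_cast h3
    have h5 : 0 ≤ 7 * (n : ℝ) / Real.logb 2 n := by positivity
    linarith
  · have h4 : (C.length : ℝ) ≤ 3 * n := by exact_mod_cast (by omega : C.length ≤ 3 * n)
    have h5 : (2 * C.length + n) / Real.logb 2 n ≤ 7 * n / Real.logb 2 n := by
      gcongr; linarith
    have h6 : (2 : ℝ) * n - 2 ≤ adds C := by
      have : (2 * n : ℕ) ≤ adds C + 2 := by omega
      have h7 : ((2 * n : ℕ) : ℝ) ≤ ((adds C + 2 : ℕ) : ℝ) := by exact_mod_cast this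
      push_cast at h7
      linarith
    have h7 : (adds C : ℝ) + bigs 2 C ≤ C.length := by
      exact_mod_cast (by omega : adds C + bigs 2 C ≤ C.length)
    linarith

theorem volume_ineq' {n : ℕ} (hn : 2 ≤ n) {C : List Gate} (hC : ComputesDFT n C) {K : ℝ}
    (hK : 1 ≤ K) :
    (n : ℝ) ^ (n - bigs K C) ≤
      2 ^ n * (2 ^ adds C * K ^ (C.length - adds C - bigs K C)) ^ 2 := by
  have h := volume_ineq hn hC hK
  have hlen := length_eq K C
  rwa [show C.length - adds C - bigs K C = smalls K C by omega]

end Final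
end Vale.Agent.P344
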